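import Vale.Agent.P153.Lattice

/-!
Connections inside a set of vertices of the triangular lattice.
-/

namespace Vale.Agent.P153.Topo

open Vale.Agent.P153

theorem adj_iff {x y : ℤ × ℤ} : Adj x y ↔
    (y.1 = x.1 + 1 ∧ y.2 = x.2) ∨ (y.1 = x.1 - 1 ∧ y.2 = x.2) ∨
    (y.1 = x.1 ∧ y.2 = x.2 + 1) ∨ (y.1 = x.1 ∧ y.2 = x.2 - 1) ∨
    (y.1 = x.1 + 1 ∧ y.2 = x.2 - 1) ∨ (y.1 = x.1 - 1 ∧ y.2 = x.2 + 1) := by
  obtain ⟨x1, x2⟩ := x
  obtain ⟨y1, y2⟩ := y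
  simp only [Adj, Set.mem_insert_iff, Set.mem_singleton_iff, Prod.mk.injEq]
  omega

theorem adj_symm {x y : ℤ × ℤ} (h : Adj x y) : Adj y x := by
  rw [adj_iff] at h ⊢
  omega

theorem adj_comm {x y : ℤ × ℤ} : Adj x y ↔ Adj y x := ⟨adj_symm, adj_symm⟩

/-- `x` and `y` are joined by a lattice path inside `S` (both end points in `S`). -/
def Conn (S : Set (ℤ × ℤ)) (x y : ℤ × ℤ) : Prop :=
  x ∈ S ∧ Relation.ReflTransGen (fun u v => Adj u v ∧ v ∈ S) x y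

theorem Conn.left_mem {S : Set (ℤ × ℤ)} {x y : ℤ × ℤ} (h : Conn S x y) : x ∈ S := h.1

theorem Conn.right_mem {S : Set (ℤ × ℤ)} {x y : ℤ × ℤ} (h : Conn S x y) : y ∈ S := by
  obtain ⟨hx, h⟩ := h
  induction h with
  | refl => exact hx
  | tail _ h _ => exact h.2

theorem Conn.refl {S : Set (ℤ × ℤ)} {x : ℤ × ℤ} (h : x ∈ S) : Conn S x x :=
  ⟨h, Relation.ReflTransGen.refl⟩

theorem Conn.trans {S : Set (ℤ × ℤ)} {x y z : ℤ × ℤ} (h : Conn S x y) (h' : Conn S y z) :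
    Conn S x z :=
  ⟨h.1, h.2.trans h'.2⟩

theorem Conn.tail {S : Set (ℤ × ℤ)} {x y z : ℤ × ℤ} (h : Conn S x y) (h' : Adj y z)
    (hz : z ∈ S) : Conn S x z :=
  ⟨h.1, h.2.tail ⟨h', hz⟩⟩

theorem Conn.of_adj {S : Set (ℤ × ℤ)} {x y : ℤ × ℤ} (hx : x ∈ S) (hy : y ∈ S)
    (h' : Adj x y) : Conn S x y :=
  (Conn.refl hx).tail h' hy

theorem Conn.symm {S : Set (ℤ × ℤ)} {x y : ℤ × ℤ} (h : Conn S x y) : Conn S y x := by
  obtain ⟨hx, h⟩ := h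
  induction h with
  | refl => exact Conn.refl hx
  | @tail b c hb h ih =>
    have hbS : b ∈ S := ih.left_mem
    exact (Conn.of_adj h.2 hbS (adj_symm h.1)).trans ih

theorem Conn.mono {S T : Set (ℤ × ℤ)} (hST : S ⊆ T) {x y : ℤ × ℤ} (h : Conn S x y) :
    Conn T x y :=
  ⟨hST h.1, Relation.ReflTransGen.mono (fun _ _ h => ⟨h.1, hST h.2⟩) _ _ h.2⟩

/-- Induction along a connection, from its start. -/
theorem Conn.ind {S : Set (ℤ × ℤ)} {x : ℤ × ℤ} (P : ℤ × ℤ → Prop) (h0 : P x)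
    (hs : ∀ u v, Conn S x u → Adj u v → v ∈ S → P u → P v) {y : ℤ × ℤ} (h : Conn S x y) :
    P y := by
  obtain ⟨hx, h⟩ := h
  induction h with
  | refl => exact h0
  | tail hb h ih => exact hs _ _ ⟨hx, hb⟩ h.1 h.2 ih

/-- The set of the vertices joined to a vertex of `K` inside `S`. -/
def comp (S K : Set (ℤ × ℤ)) : Set (ℤ × ℤ) := {y | ∃ x ∈ K, Conn S x y}

/-- A connection in `S` stays connected inside any set closed under steps in `S`. -/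
theorem Conn.of_closed {S T : Set (ℤ × ℤ)} {x y : ℤ × ℤ} (h : Conn S x y) (hx : x ∈ T)
    (hT : ∀ u v, u ∈ T → u ∈ S → v ∈ S → Adj u v → v ∈ T) : Conn (S ∩ T) x y := by
  refine Conn.ind (S := S) (fun z => Conn (S ∩ T) x z) (Conn.refl ⟨h.1, hx⟩) ?_ h
  intro u v hu huv hv ih
  exact ih.tail huv ⟨hv, hT u v ih.right_mem.2 hu.right_mem hv huv⟩

end Vale.Agent.P153.Topo
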