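import Vale.Agent.P153.Topo.Bdry
import Vale.Agent.P153.Topo.Conn

/-!
Circuits: the outer boundary of a finite connected set of the triangular lattice is finite,
connected, and separates the set from infinity.
-/

namespace Vale.Agent.P153.Topo

open Relation

theorem joined_iff_conn {S : Set (ℤ × ℤ)} {x y : ℤ × ℤ} : Joined S x y ↔ Conn S x y := by
  unfold Joined Conn
  simp only [adj_iff_step]

/-- The connected component of infinity of the complement of `K`: the vertices which can be joined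
in the complement of `K` to vertices arbitrarily far to the right. -/
def ext (K : Set (ℤ × ℤ)) : Set (ℤ × ℤ) := {x | ∀ N : ℤ, ∃ y : ℤ × ℤ, N ≤ y.1 ∧ Conn Kᶜ x y}

/-- The outer boundary of `K`: the vertices of `ext K` adjacent to `K`. -/
def rim (K : Set (ℤ × ℤ)) : Set (ℤ × ℤ) := {w | w ∈ ext K ∧ ∃ k ∈ K, Adj k w}

theorem rim_eq (K : Set (ℤ × ℤ)) : rim K = outer K (ext K) := by
  ext w; simp only [rim, outer, Set.mem_ofPred_eq, adj_iff_step]

theorem exists_box {K : Set (ℤ × ℤ)} (hK : K.Finite) :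
    ∃ N : ℤ, ∀ x ∈ K, |x.1| < N ∧ |x.2| < N := by
  obtain ⟨N, hN⟩ := (hK.toFinset.image (fun x : ℤ × ℤ => max |x.1| |x.2|)).bddAbove
  refine ⟨N + 1, fun x hx => ?_⟩
  have := hN (Finset.mem_coe.mpr (Finset.mem_image_of_mem _ (hK.mem_toFinset.mpr hx)))
  have h1 := le_max_left |x.1| |x.2|
  have h2 := le_max_right |x.1| |x.2|
  omega

theorem conn_row {S : Set (ℤ × ℤ)} {j s t : ℤ} (h : ∀ i, min s t ≤ i → i ≤ max s t → (i, j) ∈ S) :
    Conn S (s, j) (t, j) := by
  have key : ∀ (n : ℕ) (s : ℤ), (∀ i, s ≤ i → i ≤ s + n → (i, j) ∈ S) →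
      Conn S (s, j) (s + n, j) := by
    intro n
    induction n with
    | zero => intro s hs; simpa using Conn.refl (hs s le_rfl (by simp))
    | succ n ih =>
      intro s hs
      refine (ih s (fun i h1 h2 => hs i h1 (by push_cast; omega))).tail ?_ ?_
      · rw [adj_iff]; push_cast; omega
      · exact hs _ (by push_cast; omega) le_rfl
  rcases le_total s t with hst | hst
  · have := key (t - s).toNat s (fun i h1 h2 => h i (by omega) (by omega))
    rwa [show s + ((t - s).toNat : ℤ) = t by omega] at this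
  · have := key (s - t).toNat t (fun i h1 h2 => h i (by omega) (by omega))
    rw [show t + ((s - t).toNat : ℤ) = s by omega] at this
    exact this.symm

theorem conn_col {S : Set (ℤ × ℤ)} {i s t : ℤ} (h : ∀ j, min s t ≤ j → j ≤ max s t → (i, j) ∈ S) :
    Conn S (i, s) (i, t) := by
  have key : ∀ (n : ℕ) (s : ℤ), (∀ j, s ≤ j → j ≤ s + n → (i, j) ∈ S) →
      Conn S (i, s) (i, s + n) := by
    intro n
    induction n with
    | zero => intro s hs; simpa using Conn.refl (hs s le_rfl (by simp))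
    | succ n ih =>
      intro s hs
      refine (ih s (fun i h1 h2 => hs i h1 (by push_cast; omega))).tail ?_ ?_
      · rw [adj_iff]; push_cast; omega
      · exact hs _ (by push_cast; omega) le_rfl
  rcases le_total s t with hst | hst
  · have := key (t - s).toNat s (fun i h1 h2 => h i (by omega) (by omega))
    rwa [show s + ((t - s).toNat : ℤ) = t by omega] at this
  · have := key (s - t).toNat t (fun i h1 h2 => h i (by omega) (by omega))
    rw [show t + ((s - t).toNat : ℤ) = s by omega] at this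
    exact this.symm

/-- The complement of a box is connected. -/
theorem conn_compl_box {S : Set (ℤ × ℤ)} {N : ℤ} (hS : ∀ x : ℤ × ℤ, N ≤ |x.1| ∨ N ≤ |x.2| → x ∈ S)
    {x : ℤ × ℤ} (hx : N ≤ |x.1| ∨ N ≤ |x.2|) {t : ℤ} (ht : N ≤ t) : Conn S x (t, 0) := by
  have hright : ∀ j s, N ≤ s → Conn S (s, j) (t, 0) := by
    intro j s hs
    have e1 : Conn S (s, j) (t, j) := conn_row (fun i h1 _ => hS _ (Or.inl (by
      have : N ≤ min s t := le_min hs ht
      exact (this.trans h1).trans (le_abs_self i))))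
    exact e1.trans (conn_col (fun l _ _ => hS _ (Or.inl (ht.trans (le_abs_self t)))))
  have hrow : ∀ i j, N ≤ |j| → Conn S (i, j) (t, 0) := by
    intro i j hj
    have e1 : Conn S (i, j) (t, j) := conn_row (fun l _ _ => hS _ (Or.inr hj))
    exact e1.trans (hright j t ht)
  obtain ⟨i, j⟩ := x
  dsimp only at hx
  rcases hx with hi | hj
  · have e1 : Conn S (i, j) (i, |N|) := conn_col (fun l _ _ => hS _ (Or.inl hi))
    exact e1.trans (hrow i _ (by rw [abs_abs]; exact le_abs_self N))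
  · exact hrow i j hj

theorem mem_ext_of_far {K : Set (ℤ × ℤ)} {N : ℤ} (hN : ∀ x ∈ K, |x.1| < N ∧ |x.2| < N)
    {x : ℤ × ℤ} (hx : N ≤ |x.1| ∨ N ≤ |x.2|) : x ∈ ext K := by
  intro M
  refine ⟨(max N M, 0), le_max_right _ _, conn_compl_box (N := N) ?_ hx (le_max_left _ _)⟩
  intro y hy hyK
  have := hN y hyK
  omega

theorem ext_closed {K : Set (ℤ × ℤ)} {x y : ℤ × ℤ} (hx : x ∈ ext K) (h : Adj x y) (hy : y ∉ K) :
    y ∈ ext K := by
  intro M
  obtain ⟨z, h1, h2⟩ := hx M
  exact ⟨z, h1, (Conn.of_adj hy h2.left_mem (adj_symm h)).trans h2⟩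

theorem ext_disjoint {K : Set (ℤ × ℤ)} : Disjoint K (ext K) := by
  rw [Set.disjoint_left]
  intro x hx h
  obtain ⟨y, -, h2⟩ := h 0
  exact h2.left_mem hx

theorem ext_connected {K : Set (ℤ × ℤ)} (hK : K.Finite) {x y : ℤ × ℤ} (hx : x ∈ ext K)
    (hy : y ∈ ext K) : Conn (ext K) x y := by
  obtain ⟨N, hN⟩ := exists_box hK
  have key : ∀ x ∈ ext K, Conn (ext K) x (max N 0, 0) := by
    intro x hx
    obtain ⟨z, h1, h2⟩ := hx (max N 0)
    have e1 : Conn (Kᶜ ∩ ext K) x z := h2.of_closed hx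
      (fun u v hu _ hv huv => ext_closed hu huv hv)
    refine (e1.mono Set.inter_subset_right).trans (conn_compl_box (N := N) ?_ ?_ (le_max_left _ _))
    · intro u hu; exact mem_ext_of_far hN hu
    · left; exact (le_max_left _ _).trans (h1.trans (le_abs_self _))
  exact (key x hx).trans (key y hy).symm

/-- The outer boundary of a finite connected set is connected. -/
theorem rim_connected {K : Set (ℤ × ℤ)} (hK : K.Finite) (hc : ∀ x ∈ K, ∀ y ∈ K, Conn K x y)
    {v w : ℤ × ℤ} (hv : v ∈ rim K) (hw : w ∈ rim K) : Conn (rim K) v w := by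
  rw [rim_eq] at hv hw ⊢
  rw [← joined_iff_conn]
  refine outer_connected ext_disjoint (fun x hx y hy => joined_iff_conn.mpr (hc x hx y hy))
    (fun x hx y hy => joined_iff_conn.mpr (ext_connected hK hx hy)) ?_ hv hw
  intro x hx y hxy hy
  exact ext_closed hx (adj_iff_step.mpr hxy) hy

/-- The outer boundary of `K` separates `K` from `ext K`. -/
theorem rim_separates {K S : Set (ℤ × ℤ)} {x y : ℤ × ℤ} (hx : x ∈ K) (hy : y ∈ ext K)
    (h : Conn S x y) : (S ∩ rim K).Nonempty := by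
  by_contra hcon
  rw [Set.not_nonempty_iff_eq_empty] at hcon
  have key : y ∉ ext K := by
    refine Conn.ind (S := S) (fun z => z ∉ ext K) ?_ ?_ h
    · intro h'; exact (Set.disjoint_left.mp ext_disjoint) hx h'
    · intro u v _ huv hv hu hv'
      by_cases huK : u ∈ K
      · have : v ∈ S ∩ rim K := ⟨hv, hv', u, huK, huv⟩
        rw [hcon] at this; exact this
      · exact hu (ext_closed hv' (adj_symm huv) huK)
  exact key hy

theorem rim_finite {K : Set (ℤ × ℤ)} (hK : K.Finite) : (rim K).Finite := by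
  obtain ⟨N, hN⟩ := exists_box hK
  refine ((Set.finite_Icc (-N) N).prod (Set.finite_Icc (-N) N)).subset ?_
  rintro w ⟨-, k, hk, hkw⟩
  have := hN k hk
  rw [adj_iff] at hkw
  simp only [Set.mem_prod, Set.mem_Icc]
  have h1 := abs_lt.mp this.1
  have h2 := abs_lt.mp this.2
  omega

theorem rim_nonempty {K : Set (ℤ × ℤ)} (hK : K.Finite) (hne : K.Nonempty) : (rim K).Nonempty := by
  obtain ⟨N, hN⟩ := exists_box hK
  obtain ⟨x, hx⟩ := hne
  obtain ⟨z, hz⟩ := rim_separates (S := Set.univ) (y := (max N 0, 0)) hx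
    (mem_ext_of_far hN (Or.inl ((le_max_left _ _).trans (le_abs_self _))))
    (by
      obtain ⟨i, j⟩ := x
      exact (conn_row (j := j) (t := max N 0) (fun _ _ _ => Set.mem_univ _)).trans
        (conn_col (fun _ _ _ => Set.mem_univ _)))
  exact ⟨z, hz.2⟩

/-- **Circuits.** `B` is nonempty and connected and its cluster in `A ∪ B` is finite: then there is
a finite connected set `C` of vertices off `A ∪ B`, adjacent to the cluster, which meets every
path from `B` to infinity. -/
theorem exists_circuit {A B : Set (ℤ × ℤ)} (hB : ∀ x ∈ B, ∀ y ∈ B, Conn B x y) (hne : B.Nonempty)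
    (hfin : (comp (A ∪ B) B).Finite) :
    ∃ C : Set (ℤ × ℤ), C.Nonempty ∧ C.Finite ∧ (∀ v ∈ C, v ∉ A ∧ v ∉ B) ∧
      (∀ v ∈ C, ∃ k ∈ comp (A ∪ B) B, Adj k v) ∧
      (∀ v ∈ C, ∀ w ∈ C, Conn C v w) ∧
      ∀ x ∈ comp (A ∪ B) B, ∀ y ∈ ext (comp (A ∪ B) B), ∀ S, Conn S x y → (S ∩ C).Nonempty := by
  set K := comp (A ∪ B) B with hK
  have hcl : ∀ x ∈ K, ∀ y, Adj x y → y ∈ A ∪ B → y ∈ K := by
    rintro x ⟨b, hb, hbx⟩ y hxy hy
    exact ⟨b, hb, hbx.tail hxy hy⟩
  have hBK : ∀ b ∈ B, b ∈ K := fun b hb => ⟨b, hb, Conn.refl (Or.inr hb)⟩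
  have hc : ∀ x ∈ K, ∀ y ∈ K, Conn K x y := by
    have h0 : ∀ x ∈ K, ∃ b ∈ B, Conn K b x := by
      rintro x ⟨b, hb, hbx⟩
      exact ⟨b, hb, (hbx.of_closed (T := K) (hBK b hb)
        (fun u v hu _ hv huv => hcl u hu v huv hv)).mono Set.inter_subset_right⟩
    intro x hx y hy
    obtain ⟨b, hb, h1⟩ := h0 x hx
    obtain ⟨b', hb', h2⟩ := h0 y hy
    exact (h1.symm.trans ((hB b hb b' hb').mono (fun z hz => hBK z hz))).trans h2
  have hKne : K.Nonempty := hne.mono (fun b hb => hBK b hb)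
  refine ⟨rim K, rim_nonempty hfin hKne, rim_finite hfin, ?_, fun v hv => hv.2,
    fun v hv w hw => rim_connected hfin hc hv hw, fun x hx y hy S h => rim_separates hx hy h⟩
  rintro v ⟨hv, k, hk, hkv⟩
  have hvK : v ∉ K := fun h => (Set.disjoint_left.mp ext_disjoint) h hv
  exact ⟨fun h => hvK (hcl k hk v hkv (Or.inl h)), fun h => hvK (hBK v h)⟩

end Vale.Agent.P153.Topo
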