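import Vale.Agent.P153.Topo.Conn

/-!
The crossing lemma in a parallelogram: a path from left to right meets every path from bottom
to top.
-/

namespace Vale.Agent.P153.Topo

open Vale.Agent.P153

/-- The step `u v` passes from column `z.1` to column `z.1 + 1` (or back) above `z`. -/
def above (u v z : ℤ × ℤ) : ZMod 2 :=
  if (u.1 = z.1 ∧ v.1 = z.1 + 1 ∧ z.2 < u.2) ∨ (v.1 = z.1 ∧ u.1 = z.1 + 1 ∧ z.2 < v.2)
    then 1 else 0

/-- `1` on the part of column `i` strictly above height `j`. -/
def col (i j : ℤ) (x : ℤ × ℤ) : ZMod 2 := if x.1 = i ∧ j < x.2 then 1 else 0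

/-- `1` on the columns up to `i`. -/
def lft (i : ℤ) (x : ℤ × ℤ) : ZMod 2 := if x.1 ≤ i then 1 else 0

theorem z2_add_self (a : ZMod 2) : a + a = 0 := by
  revert a; decide

theorem above_up {u v z : ℤ × ℤ} (hu : u ≠ (z.1, z.2 + 1)) (hv : v ≠ (z.1, z.2 + 1)) :
    above u v z = above u v (z.1, z.2 + 1) := by
  obtain ⟨u1, u2⟩ := u
  obtain ⟨v1, v2⟩ := v
  obtain ⟨z1, z2⟩ := z
  simp only [ne_eq, Prod.mk.injEq] at hu hv
  simp only [above]
  congr 1
  apply propext
  omega

theorem above_right {u v z : ℤ × ℤ} (huv : Adj u v) (hu : u ≠ z) (hv : v ≠ z)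
    (hu' : u ≠ (z.1 + 1, z.2)) (hv' : v ≠ (z.1 + 1, z.2)) :
    above u v z + above u v (z.1 + 1, z.2) = col (z.1 + 1) z.2 u + col (z.1 + 1) z.2 v := by
  obtain ⟨u1, u2⟩ := u
  obtain ⟨v1, v2⟩ := v
  obtain ⟨z1, z2⟩ := z
  rw [adj_iff] at huv
  simp only [ne_eq, Prod.mk.injEq] at hu hv hu' hv' huv
  simp only [above, col]
  rcases huv with h | h | h | h | h | h <;> obtain ⟨rfl, rfl⟩ := h <;>
    split_ifs <;> first | rfl | (exfalso; omega)

theorem above_diag {u v z : ℤ × ℤ} (huv : Adj u v) (hu : u ≠ z) (hv : v ≠ z)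
    (hu' : u ≠ (z.1 + 1, z.2 - 1)) (hv' : v ≠ (z.1 + 1, z.2 - 1)) :
    above u v z + above u v (z.1 + 1, z.2 - 1) =
      col (z.1 + 1) (z.2 - 1) u + col (z.1 + 1) (z.2 - 1) v := by
  obtain ⟨u1, u2⟩ := u
  obtain ⟨v1, v2⟩ := v
  obtain ⟨z1, z2⟩ := z
  rw [adj_iff] at huv
  simp only [ne_eq, Prod.mk.injEq] at hu hv hu' hv' huv
  simp only [above, col]
  rcases huv with h | h | h | h | h | h <;> obtain ⟨rfl, rfl⟩ := h <;>
    split_ifs <;> first | rfl | (exfalso; omega)

theorem above_low {u v z : ℤ × ℤ} (huv : Adj u v)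
    (hu : u.1 = z.1 → z.2 < u.2) (hv : v.1 = z.1 → z.2 < v.2) :
    above u v z = lft z.1 u + lft z.1 v := by
  obtain ⟨u1, u2⟩ := u
  obtain ⟨v1, v2⟩ := v
  obtain ⟨z1, z2⟩ := z
  rw [adj_iff] at huv
  simp only at hu hv huv
  simp only [above, lft]
  rcases huv with h | h | h | h | h | h <;> obtain ⟨rfl, rfl⟩ := h <;>
    split_ifs <;> first | rfl | (exfalso; omega)

/-- **Parity of a path.** For a path in `A` from `x` to `u` there is a function (the parity of
the number of steps of the path above a vertex) which is constant along steps off `A`, up to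
explicit contributions of the two end points. -/
theorem exists_parity {A : Set (ℤ × ℤ)} {x u : ℤ × ℤ} (h : Conn A x u) :
    ∃ U : ℤ × ℤ → ZMod 2,
      (∀ z, (z.1, z.2 + 1) ∉ A → U z = U (z.1, z.2 + 1)) ∧
      (∀ z, z ∉ A → (z.1 + 1, z.2) ∉ A →
        U z + U (z.1 + 1, z.2) = col (z.1 + 1) z.2 x + col (z.1 + 1) z.2 u) ∧
      (∀ z, z ∉ A → (z.1 + 1, z.2 - 1) ∉ A →
        U z + U (z.1 + 1, z.2 - 1) = col (z.1 + 1) (z.2 - 1) x + col (z.1 + 1) (z.2 - 1) u) ∧
      (∀ z, (∀ w ∈ A, w.1 = z.1 → w.2 ≤ z.2) → U z = 0) ∧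
      (∀ z, (∀ w ∈ A, w.1 = z.1 → z.2 < w.2) → U z = lft z.1 x + lft z.1 u) := by
  refine Conn.ind (S := A) (fun u => ∃ U : ℤ × ℤ → ZMod 2,
      (∀ z, (z.1, z.2 + 1) ∉ A → U z = U (z.1, z.2 + 1)) ∧
      (∀ z, z ∉ A → (z.1 + 1, z.2) ∉ A →
        U z + U (z.1 + 1, z.2) = col (z.1 + 1) z.2 x + col (z.1 + 1) z.2 u) ∧
      (∀ z, z ∉ A → (z.1 + 1, z.2 - 1) ∉ A →
        U z + U (z.1 + 1, z.2 - 1) = col (z.1 + 1) (z.2 - 1) x + col (z.1 + 1) (z.2 - 1) u) ∧
      (∀ z, (∀ w ∈ A, w.1 = z.1 → w.2 ≤ z.2) → U z = 0) ∧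
      (∀ z, (∀ w ∈ A, w.1 = z.1 → z.2 < w.2) → U z = lft z.1 x + lft z.1 u)) ?_ ?_ h
  · refine ⟨fun _ => 0, fun z _ => rfl, fun z _ _ => ?_, fun z _ _ => ?_, fun z _ => rfl,
      fun z _ => ?_⟩ <;> simp [z2_add_self]
  · rintro u v hu huv hv ⟨U, h1, h2, h3, h4, h5⟩
    have huA := hu.right_mem
    refine ⟨fun z => U z + above u v z, ?_, ?_, ?_, ?_, ?_⟩
    · intro z hz
      dsimp only
      rw [h1 z hz, above_up (z := z) (fun h => hz (h ▸ huA)) (fun h => hz (h ▸ hv))]
    · intro z hz hz'
      have e1 := h2 z hz hz'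
      have e2 := above_right (z := z) huv (fun h => hz (h ▸ huA)) (fun h => hz (h ▸ hv))
        (fun h => hz' (h ▸ huA)) (fun h => hz' (h ▸ hv))
      have e3 := z2_add_self (col (z.1 + 1) z.2 u)
      dsimp only
      linear_combination e1 + e2 + e3
    · intro z hz hz'
      have e1 := h3 z hz hz'
      have e2 := above_diag (z := z) huv (fun h => hz (h ▸ huA)) (fun h => hz (h ▸ hv))
        (fun h => hz' (h ▸ huA)) (fun h => hz' (h ▸ hv))
      have e3 := z2_add_self (col (z.1 + 1) (z.2 - 1) u)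
      dsimp only
      linear_combination e1 + e2 + e3
    · intro z hz
      dsimp only
      rw [h4 z hz, zero_add, above, if_neg]
      have := hz u huA
      have := hz v hv
      omega
    · intro z hz
      have e1 := h5 z hz
      have e2 := above_low (z := z) huv (hz u huA) (hz v hv)
      have e3 := z2_add_self (lft z.1 u)
      dsimp only
      linear_combination e1 + e2 + e3

/-- **Crossing lemma.** In the parallelogram `[a, b] × [c, d]` a path of `A` from the left side
to the right side and a path of `B` from the bottom to the top have a common vertex. -/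
theorem cross {A B : Set (ℤ × ℤ)} {a b c d : ℤ}
    (hA : ∀ z ∈ A, a ≤ z.1 ∧ z.1 ≤ b ∧ c ≤ z.2 ∧ z.2 ≤ d)
    (hB : ∀ z ∈ B, a ≤ z.1 ∧ z.1 ≤ b ∧ c ≤ z.2 ∧ z.2 ≤ d)
    {x x' y y' : ℤ × ℤ} (hx : Conn A x x') (hxa : x.1 = a) (hxb : x'.1 = b)
    (hy : Conn B y y') (hyc : y.2 = c) (hyd : y'.2 = d) : ∃ z, z ∈ A ∧ z ∈ B := by
  by_contra hno
  push Not at hno
  set A' : Set (ℤ × ℤ) := insert (b + 1, x'.2) A with hA'
  have hBA : ∀ z ∈ B, z ∉ A' := by
    intro z hz hz'
    rcases hz' with rfl | hz'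
    · have := (hB _ hz).2.1
      simp at this
    · exact hno z hz' hz
  have hconn : Conn A' x (b + 1, x'.2) := by
    refine (hx.mono (Set.subset_insert _ _)).tail ?_ (Set.mem_insert _ _)
    rw [adj_iff]
    left
    exact ⟨by rw [hxb], rfl⟩
  obtain ⟨U, h1, h2, h3, h4, h5⟩ := exists_parity hconn
  have key : ∀ z, Conn B y z → U z = 1 := by
    intro z hz
    refine Conn.ind (S := B) (fun z => U z = 1) ?_ ?_ hz
    · have hyB := hy.left_mem
      have hyr := hB y hyB
      rw [h5 y]
      · simp only [lft]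
        rw [if_pos (by omega), if_neg (by omega)]
        decide
      · intro w hw hwy
        rcases hw with rfl | hw
        · exfalso
          have : b + 1 = y.1 := hwy
          omega
        · have hwr := hA w hw
          rcases lt_or_eq_of_le hwr.2.2.1 with h | h
          · omega
          · exfalso
            exact hno w hw (by
              have : w = y := Prod.ext hwy (by omega)
              rw [this]; exact hyB)
    · intro u v hu huv hv ih
      have huB := hu.right_mem
      have hur := hB u huB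
      have hvr := hB v hv
      have huA := hBA u huB
      have hvA := hBA v hv
      obtain ⟨u1, u2⟩ := u
      obtain ⟨v1, v2⟩ := v
      rw [adj_iff] at huv
      dsimp only at huv hur hvr
      have fin2 : ∀ s t : ZMod 2, s + t = 0 → s = 1 → t = 1 := by decide
      have fin2' : ∀ s t : ZMod 2, s + t = 0 → t = 1 → s = 1 := by decide
      have hx1 : x.1 = a := hxa
      rcases huv with h | h | h | h | h | h <;> obtain ⟨rfl, rfl⟩ := h
      · refine fin2 _ _ ?_ ih
        rw [h2 (u1, v2) huA hvA]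
        simp only [col]
        rw [if_neg (by omega), if_neg (by omega)]
        rfl
      · have e : (u1 - 1 + 1, v2) = (u1, v2) := by simp
        refine fin2' _ _ ?_ ih
        have := h2 (u1 - 1, v2) hvA (by rw [e]; exact huA)
        dsimp only at this
        rw [e] at this
        rw [this]
        simp only [col]
        rw [if_neg (by omega), if_neg (by omega)]
        rfl
      · rw [← h1 (v1, u2) hvA]
        exact ih
      · have e : (v1, u2 - 1 + 1) = (v1, u2) := by simp
        have := h1 (v1, u2 - 1) (by dsimp only; rw [e]; exact huA)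
        dsimp only at this
        rw [this, e]
        exact ih
      · refine fin2 _ _ ?_ ih
        rw [h3 (u1, u2) huA hvA]
        simp only [col]
        rw [if_neg (by omega), if_neg (by omega)]
        rfl
      · have e : (u1 - 1 + 1, u2 + 1 - 1) = (u1, u2) := by simp
        refine fin2' _ _ ?_ ih
        have := h3 (u1 - 1, u2 + 1) hvA (by dsimp only; rw [e]; exact huA)
        dsimp only at this
        rw [e] at this
        rw [this]
        simp only [col]
        rw [if_neg (by omega), if_neg (by omega)]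
        rfl
  have hy1 := key y' hy
  have hy'r := hB y' hy.right_mem
  rw [h4 y'] at hy1
  · exact zero_ne_one hy1
  · intro w hw hwy
    rcases hw with rfl | hw
    · exfalso
      have : b + 1 = y'.1 := hwy
      omega
    · have := hA w hw
      omega

end Vale.Agent.P153.Topo
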