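import Vale.Agent.P153.Topo.Iface

/-!
The Hex lemma in a parallelogram.
-/

namespace Vale.Agent.P153.Topo

open Vale.Agent.P153 Classical

/-- The last visit of a path outside `R`. -/
theorem Conn.last {T R : Set (ℤ × ℤ)} {x y : ℤ × ℤ} (h : Conn T x y) (hx : x ∉ R)
    (hy : y ∈ R) : ∃ u v, Conn T x u ∧ u ∉ R ∧ Adj u v ∧ Conn (T ∩ R) v y := by
  revert hy
  refine Conn.ind (S := T) (fun y => y ∈ R →
    ∃ u v, Conn T x u ∧ u ∉ R ∧ Adj u v ∧ Conn (T ∩ R) v y) (fun hx' => absurd hx' hx) ?_ h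
  intro y y' hy hyy' hy' ih hR
  by_cases hyR : y ∈ R
  · obtain ⟨u, v, h1, h2, h3, h4⟩ := ih hyR
    exact ⟨u, v, h1, h2, h3, h4.tail hyy' ⟨hy', hR⟩⟩
  · exact ⟨y, y', hy, hyR, hyy', Conn.refl ⟨hy', hR⟩⟩

/-- The parallelogram `[a, b] × [c, d]`. -/
def Rect (a b c d : ℤ) : Set (ℤ × ℤ) := {z | a ≤ z.1 ∧ z.1 ≤ b ∧ c ≤ z.2 ∧ z.2 ≤ d}

theorem mem_rect {a b c d : ℤ} {z : ℤ × ℤ} :
    z ∈ Rect a b c d ↔ a ≤ z.1 ∧ z.1 ≤ b ∧ c ≤ z.2 ∧ z.2 ≤ d := Iff.rfl

theorem rect_finite (a b c d : ℤ) : (Rect a b c d).Finite := by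
  have : Rect a b c d = (Finset.Icc a b ×ˢ Finset.Icc c d : Finset (ℤ × ℤ)) := by
    ext z
    simp only [mem_rect, Finset.coe_product, Finset.coe_Icc, Set.mem_prod, Set.mem_Icc]
    tauto
  rw [this]
  exact Finset.finite_toSet _

/-- `S` joins the left side to the right side of the parallelogram. -/
def LR (a b c d : ℤ) (S : Set (ℤ × ℤ)) : Prop :=
  ∃ x y, Conn (S ∩ Rect a b c d) x y ∧ x.1 = a ∧ y.1 = b

/-- `S` joins the bottom to the top of the parallelogram. -/
def BT (a b c d : ℤ) (S : Set (ℤ × ℤ)) : Prop :=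
  ∃ x y, Conn (S ∩ Rect a b c d) x y ∧ x.2 = c ∧ y.2 = d

/-- **Hex lemma**: in a parallelogram either `S` joins left to right or the complement of `S`
joins bottom to top. -/
theorem hex (S : Set (ℤ × ℤ)) {a b c d : ℤ} (hab : a ≤ b) (hcd : c ≤ d) :
    LR a b c d S ∨ BT a b c d Sᶜ := by
  set S' : Set (ℤ × ℤ) := {z | z.1 < a ∨ (z ∈ S ∧ z ∈ Rect a b c d)} with hS'
  set X1 : Set (ℤ × ℤ) := Rect (a - 1) (b - 1) c d with hX1
  set X2 : Set (ℤ × ℤ) := Rect a b (c - 1) (d - 1) with hX2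
  set W : Set ((ℤ × ℤ) × (ℤ × ℤ)) := X1 ×ˢ X2 with hW
  have hWf : W.Finite := (rect_finite _ _ _ _).prod (rect_finite _ _ _ _)
  set e : (ℤ × ℤ) × (ℤ × ℤ) := ((a - 1, c), (a, c - 1)) with he
  have hePos : e ∈ Pos S' := by
    refine ⟨?_, ?_, ?_⟩
    · rw [adj_iff]
      simp only [he]
      right; right; right; right; left
      exact ⟨by ring, trivial⟩
    · left
      simp only [he]
      omega
    · rintro (h | ⟨-, h⟩)
      · simp only [he] at h
        omega
      · rw [mem_rect] at h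
        simp only [he] at h
        omega
  have heW : e ∈ W := by
    simp only [hW, Set.mem_prod, hX1, hX2, mem_rect, he]
    omega
  have hprv : prv S' e ∉ W := by
    have h1 : rv e = (a - 1, c - 1) := by
      simp only [rv, he, Prod.mk.injEq]
      constructor <;> ring
    have h2 : rv e ∈ S' := by
      rw [h1]
      left
      simp only
      omega
    unfold prv
    rw [if_pos h2, h1]
    simp only [hW, Set.mem_prod, hX1, mem_rect]
    omega
  obtain ⟨k, hk, hk'⟩ := exists_exit hWf hePos heW hprv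
  have hkW := hk k le_rfl
  have hkP := pos_mem hePos k
  have hred := conn_fst (T := X1) hePos k fun i hi => (hk i hi).1
  have hblue := conn_snd (T := X2) hePos k fun i hi => (hk i hi).2
  rw [pos_succ] at hk'
  set p := pos S' e k with hp
  obtain ⟨⟨r1, r2⟩, ⟨b1, b2⟩⟩ := p
  obtain ⟨hpA, hpr, hpb⟩ := hkP
  dsimp only at hpA hpr hpb hred hblue
  obtain ⟨hkr, hkb⟩ := hkW
  rw [hX1, mem_rect] at hkr
  rw [hX2, mem_rect] at hkb
  dsimp only at hkr hkb
  unfold nxt at hk'
  split_ifs at hk' with hL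
  · -- red exit
    left
    have hL1 : lv ((r1, r2), (b1, b2)) ∈ Rect a b c d ∧ lv ((r1, r2), (b1, b2)) ∈ S ∧
        (lv ((r1, r2), (b1, b2))).1 = b := by
      have hnot : lv ((r1, r2), (b1, b2)) ∉ X1 := by
        intro h
        exact hk' ⟨h, by rw [hX2, mem_rect]; exact hkb⟩
      rw [hX1, mem_rect] at hnot
      have hpA' := hpA
      rw [adj_iff] at hpA'
      rcases hL with hL | ⟨hL, hL'⟩
      · exfalso
        simp only [lv] at hnot hL
        dsimp only at hpA'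
        omega
      · refine ⟨hL', hL, ?_⟩
        rw [mem_rect] at hL'
        simp only [lv] at hnot hL' ⊢
        omega
    obtain ⟨hLR, hLS, hLb⟩ := hL1
    have hc : Conn (S' ∩ (X1 ∪ {lv ((r1, r2), (b1, b2))})) e.1 (lv ((r1, r2), (b1, b2))) := by
      refine (hred.mono ?_).tail (adj_lv_left (e := ((r1, r2), (b1, b2))) hpA) ?_
      · exact Set.inter_subset_inter_right _ Set.subset_union_left
      · exact ⟨Or.inr ⟨hLS, hLR⟩, Or.inr rfl⟩
    obtain ⟨u, v, h1, h2, h3, h4⟩ := Conn.last (R := Rect a b c d) hc (by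
      rw [mem_rect]; simp only [he]; omega) hLR
    refine ⟨v, lv ((r1, r2), (b1, b2)), h4.mono ?_, ?_, hLb⟩
    · rintro z ⟨⟨hz, -⟩, hz'⟩
      rcases hz with hz | hz
      · rw [mem_rect] at hz'
        omega
      · exact hz
    · have hu := h1.right_mem
      obtain ⟨hu1, hu2⟩ := hu
      have hv := h4.left_mem.2
      rw [mem_rect] at h2 hv
      rw [adj_iff] at h3
      rcases hu1 with hu1 | ⟨-, hu1⟩
      · omega
      · exact absurd hu1 h2
  · -- blue exit
    right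
    have hpA' := hpA
    rw [adj_iff] at hpA'
    have hL0 : ¬ ((lv ((r1, r2), (b1, b2))).1 < a) := fun h => hL (Or.inl h)
    have hnot : lv ((r1, r2), (b1, b2)) ∉ X2 := by
      intro h
      exact hk' ⟨by rw [hX1, mem_rect]; exact hkr, h⟩
    have hLR : lv ((r1, r2), (b1, b2)) ∈ Rect a b c d ∧ (lv ((r1, r2), (b1, b2))).2 = d := by
      rw [hX2, mem_rect] at hnot
      rw [mem_rect]
      simp only [lv] at hnot hL0 ⊢
      dsimp only at hpA'
      omega
    obtain ⟨hLR, hLd⟩ := hLR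
    have hc : Conn (S'ᶜ ∩ (X2 ∪ {lv ((r1, r2), (b1, b2))})) e.2 (lv ((r1, r2), (b1, b2))) := by
      refine (hblue.mono ?_).tail (adj_symm (adj_lv_right (e := ((r1, r2), (b1, b2))) hpA)) ?_
      · exact Set.inter_subset_inter_right _ Set.subset_union_left
      · exact ⟨hL, Or.inr rfl⟩
    obtain ⟨u, v, h1, h2, h3, h4⟩ := Conn.last (R := Rect a b c d) hc (by
      rw [mem_rect]; simp only [he]; omega) hLR
    refine ⟨v, lv ((r1, r2), (b1, b2)), h4.mono ?_, ?_, hLd⟩
    · rintro z ⟨⟨hz, -⟩, hz'⟩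
      exact ⟨fun hzS => hz (Or.inr ⟨hzS, hz'⟩), hz'⟩
    · have hu := h1.right_mem
      obtain ⟨hu1, hu2⟩ := hu
      have hv := h4.left_mem.2
      have hu3 : ¬ (u.1 < a) := fun h => hu1 (Or.inl h)
      rw [mem_rect] at h2 hv
      rw [adj_iff] at h3
      rcases hu2 with hu2 | hu2
      · rw [hX2, mem_rect] at hu2
        omega
      · rw [Set.mem_singleton_iff] at hu2
        rw [hu2] at h2
        rw [mem_rect] at hLR
        omega

/-- Hex lemma with the roles of the sides exchanged. -/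
theorem hex' (S : Set (ℤ × ℤ)) {a b c d : ℤ} (hab : a ≤ b) (hcd : c ≤ d) :
    BT a b c d S ∨ LR a b c d Sᶜ := by
  rcases hex Sᶜ hab hcd with h | h
  · exact Or.inr h
  · left
    rwa [compl_compl] at h

end Vale.Agent.P153.Topo
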