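import Vale.Agent.P153.Topo.Basic

/-!
The primitive of an antisymmetric cochain on the triangular lattice whose sum around every
triangle is zero, with values in a commutative group.
-/

namespace Vale.Agent.P153.Topo

variable {G : Type*} [AddCommGroup G]

/-- Primitive of a function on the integers. -/
theorem exists_primG (f : ℤ → G) : ∃ F : ℤ → G, F 0 = 0 ∧ ∀ i, F (i + 1) = F i + f i := by
  refine ⟨fun i => ∑ k ∈ Finset.Ico 0 i, f k - ∑ k ∈ Finset.Ico i 0, f k, by simp, ?_⟩
  intro i
  rcases le_or_gt 0 i with h | h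
  · have e1 : Finset.Ico 0 (i + 1) = insert i (Finset.Ico 0 i) := by
      ext k; simp only [Finset.mem_Ico, Finset.mem_insert]; omega
    have e2 : Finset.Ico (i + 1) 0 = ∅ := Finset.Ico_eq_empty (by omega)
    have e3 : Finset.Ico i 0 = ∅ := Finset.Ico_eq_empty (by omega)
    simp only [e1, e2, e3, Finset.sum_empty]
    rw [Finset.sum_insert (by simp)]
    abel
  · have e1 : Finset.Ico i 0 = insert i (Finset.Ico (i + 1) 0) := by
      ext k; simp only [Finset.mem_Ico, Finset.mem_insert]; omega
    have e2 : Finset.Ico 0 (i + 1) = ∅ := Finset.Ico_eq_empty (by omega)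
    have e3 : Finset.Ico 0 i = ∅ := Finset.Ico_eq_empty (by omega)
    simp only [e1, e2, e3, Finset.sum_empty]
    rw [Finset.sum_insert (by simp)]
    abel

theorem const_of_succG {g : ℤ → G} (h0 : g 0 = 0) (h : ∀ j, g (j + 1) = g j) (j : ℤ) :
    g j = 0 := by
  induction j using Int.induction_on with
  | zero => exact h0
  | succ n ih => rw [h, ih]
  | pred n ih =>
    have := h (-(n : ℤ) - 1)
    rw [sub_add_cancel] at this
    rw [← this, ih]

/-- An antisymmetric cochain on the edges of the triangular lattice whose sum around every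
triangle is zero is the coboundary of a function on the vertices. -/
theorem exists_cobG (c : ℤ × ℤ → ℤ × ℤ → G) (hs : ∀ x y, c x y = - c y x)
    (h1 : ∀ i j, c (i, j) (i + 1, j) + c (i + 1, j) (i, j + 1) + c (i, j + 1) (i, j) = 0)
    (h2 : ∀ i j, c (i + 1, j) (i + 1, j + 1) + c (i + 1, j + 1) (i, j + 1) +
      c (i, j + 1) (i + 1, j) = 0) :
    ∃ U : ℤ × ℤ → G, ∀ x y, Step x y → c x y = U y - U x := by
  obtain ⟨A, hA0, hA⟩ := exists_primG (fun i => c (i, 0) (i + 1, 0))
  choose B hB0 hB using fun i => exists_primG (fun j => c (i, j) (i, j + 1))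
  have hor : ∀ i j, c (i, j) (i + 1, j) = (A (i + 1) + B (i + 1) j) - (A i + B i j) := by
    intro i
    have key : ∀ j, (A (i + 1) + B (i + 1) j) - (A i + B i j) - c (i, j) (i + 1, j) = 0 := by
      apply const_of_succG
      · rw [hB0, hB0, hA]
        abel
      · intro j
        rw [hB, hB]
        have e1 := h1 i j
        have e2 := h2 i j
        rw [hs (i, j + 1) (i, j)] at e1
        rw [hs (i + 1, j + 1) (i, j + 1), hs (i, j + 1) (i + 1, j)] at e2
        rw [← sub_eq_zero]
        have e3 : A (i + 1) + (B (i + 1) j + c (i + 1, j) (i + 1, j + 1)) -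
            (A i + (B i j + c (i, j) (i, j + 1))) - c (i, j + 1) (i + 1, j + 1) -
            (A (i + 1) + B (i + 1) j - (A i + B i j) - c (i, j) (i + 1, j)) =
            (c (i, j) (i + 1, j) + c (i + 1, j) (i, j + 1) + -c (i, j) (i, j + 1)) +
            (c (i + 1, j) (i + 1, j + 1) + -c (i, j + 1) (i + 1, j + 1) +
              -c (i + 1, j) (i, j + 1)) := by abel
        rw [e3, e1, e2, add_zero]
    intro j
    exact (sub_eq_zero.1 (key j)).symm
  have ver : ∀ i j, c (i, j) (i, j + 1) = (A i + B i (j + 1)) - (A i + B i j) := by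
    intro i j
    rw [hB]
    abel
  have dia : ∀ i j, c (i + 1, j) (i, j + 1) =
      (A i + B i (j + 1)) - (A (i + 1) + B (i + 1) j) := by
    intro i j
    have e1 := h1 i j
    rw [hs (i, j + 1) (i, j), hor i j, ver i j] at e1
    rw [← sub_eq_zero, ← e1]
    abel
  refine ⟨fun x => A x.1 + B x.1 x.2, ?_⟩
  rintro ⟨i, j⟩ ⟨k, l⟩ h
  unfold Step at h
  dsimp only at h ⊢
  rcases h with ⟨rfl, rfl⟩ | ⟨rfl, rfl⟩ | ⟨rfl, rfl⟩ | ⟨rfl, rfl⟩ | ⟨rfl, rfl⟩ | ⟨rfl, rfl⟩
  · exact hor i l
  · have := hor (i - 1) l
    rw [sub_add_cancel] at this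
    rw [hs, this]; abel
  · exact ver k j
  · have := ver k (j - 1)
    rw [sub_add_cancel] at this
    rw [hs, this]; abel
  · have := dia i (j - 1)
    rw [sub_add_cancel] at this
    rw [hs, this]; abel
  · have := dia (i - 1) j
    rw [sub_add_cancel] at this
    rw [this]

/-- The same, with one hypothesis for all oriented triangles. -/
theorem exists_pot (c : ℤ × ℤ → ℤ × ℤ → G) (hs : ∀ x y, Step x y → c x y = - c y x)
    (h : ∀ x y z, Step x y → Step y z → Step z x → c x y + c y z + c z x = 0) :
    ∃ U : ℤ × ℤ → G, ∀ x y, Step x y → c x y = U y - U x := by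
  classical
  obtain ⟨U, hU⟩ := exists_cobG (fun x y => if Step x y then c x y else 0)
    (fun x y => by
      by_cases hxy : Step x y
      · simp only [hxy, step_symm hxy, if_true]
        exact hs x y hxy
      · have : ¬ Step y x := fun h' => hxy (step_symm h')
        simp only [hxy, this, if_false, neg_zero])
    (fun i j => by
      have a1 : Step (i, j) (i + 1, j) := by unfold Step; dsimp only; omega
      have a2 : Step (i + 1, j) (i, j + 1) := by unfold Step; dsimp only; omega
      have a3 : Step (i, j + 1) (i, j) := by unfold Step; dsimp only; omega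
      simp only [a1, a2, a3, if_true]
      exact h _ _ _ a1 a2 a3)
    (fun i j => by
      have a1 : Step (i + 1, j) (i + 1, j + 1) := by unfold Step; dsimp only; omega
      have a2 : Step (i + 1, j + 1) (i, j + 1) := by unfold Step; dsimp only; omega
      have a3 : Step (i, j + 1) (i + 1, j) := by unfold Step; dsimp only; omega
      simp only [a1, a2, a3, if_true]
      exact h _ _ _ a1 a2 a3)
  refine ⟨U, fun x y hxy => ?_⟩
  rw [← hU x y hxy, if_pos hxy]

end Vale.Agent.P153.Topo
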