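import Vale.Agent.P153.LevelChain

/-!
Paths in the triangular lattice `ℤ × ℤ` (adjacency `Step`), and the primitive of a
`ZMod 2`-valued cochain with zero sum around every triangle.
-/

namespace Vale.Agent.P153.Topo

open Relation

theorem step_symm {x y : ℤ × ℤ} (h : Step x y) : Step y x := by
  unfold Step at h ⊢; omega

theorem step_ne {x y : ℤ × ℤ} (h : Step x y) : x ≠ y := by
  rintro rfl; unfold Step at h; omega

instance (x y : ℤ × ℤ) : Decidable (Step x y) := by unfold Step; infer_instance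

/-- `x` and `y` are joined by a lattice path inside `S`. -/
def Joined (S : Set (ℤ × ℤ)) (x y : ℤ × ℤ) : Prop :=
  x ∈ S ∧ ReflTransGen (fun u v => Step u v ∧ v ∈ S) x y

variable {S T : Set (ℤ × ℤ)} {x y z : ℤ × ℤ}

theorem Joined.refl (h : x ∈ S) : Joined S x x := ⟨h, ReflTransGen.refl⟩

theorem Joined.left (h : Joined S x y) : x ∈ S := h.1

theorem Joined.right (h : Joined S x y) : y ∈ S := by
  rcases ReflTransGen.cases_tail h.2 with rfl | ⟨c, -, hc⟩
  · exact h.1
  · exact hc.2

theorem Joined.trans (h : Joined S x y) (h' : Joined S y z) : Joined S x z :=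
  ⟨h.1, h.2.trans h'.2⟩

theorem Joined.single (h : Step x y) (hx : x ∈ S) (hy : y ∈ S) : Joined S x y :=
  ⟨hx, ReflTransGen.single ⟨h, hy⟩⟩

theorem Joined.symm (h : Joined S x y) : Joined S y x := by
  obtain ⟨h1, h2⟩ := h
  induction h2 with
  | refl => exact Joined.refl h1
  | tail hab hbc ih =>
    exact Joined.trans (Joined.single (step_symm hbc.1) hbc.2
      (Joined.right ⟨h1, hab⟩)) ih

theorem Joined.mono (h : Joined S x y) (hST : S ⊆ T) : Joined T x y :=
  ⟨hST h.1, ReflTransGen.mono (fun _ _ hab => ⟨hab.1, hST hab.2⟩) _ _ h.2⟩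

theorem Joined.comm : Joined S x y ↔ Joined S y x := ⟨Joined.symm, Joined.symm⟩

/-- A joined pair as an explicit walk. -/
theorem Joined.walk (h : Joined S x y) : ∃ (m : ℕ) (w : ℕ → ℤ × ℤ), w 0 = x ∧ w m = y ∧
    (∀ k < m, Step (w k) (w (k + 1))) ∧ ∀ k ≤ m, w k ∈ S := by
  obtain ⟨h1, h2⟩ := h
  induction h2 with
  | refl => exact ⟨0, fun _ => x, rfl, rfl, fun k hk => absurd hk (Nat.not_lt_zero _),
      fun _ _ => h1⟩
  | tail hab hbc ih =>
    rename_i b' c'
    obtain ⟨m, w, h0, hm, hw, hS⟩ := ih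
    refine ⟨m + 1, fun k => if k ≤ m then w k else c', by simp [h0], by simp, ?_, ?_⟩
    · intro k hk
      rcases Nat.lt_or_ge k m with h | h
      · have e1 : k ≤ m := h.le
        have e2 : k + 1 ≤ m := h
        simp only [e1, e2, if_true]
        exact hw k h
      · have e1 : k = m := by omega
        subst e1
        simp only [le_refl, if_true, show ¬ (k + 1 ≤ k) by omega, if_false, hm]
        exact hbc.1
    · intro k _
      by_cases h : k ≤ m
      · simp only [h, if_true]; exact hS k h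
      · simp only [h, if_false]; exact hbc.2

/-- A walk joins its vertices. -/
theorem joined_of_walk {m : ℕ} {w : ℕ → ℤ × ℤ} (hw : ∀ k < m, Step (w k) (w (k + 1)))
    (hS : ∀ k ≤ m, w k ∈ S) {s t : ℕ} (hst : s ≤ t) (ht : t ≤ m) : Joined S (w s) (w t) := by
  induction t, hst using Nat.le_induction with
  | base => exact Joined.refl (hS s ht)
  | succ t hst ih =>
    exact (ih (by omega)).trans (Joined.single (hw t (by omega)) (hS t (by omega)) (hS _ ht))

/-- A walk from a vertex with `f ≤ c` to a vertex with `f ≥ d` along which `f` changes by at most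
one per step contains a piece with `c ≤ f ≤ d` from a vertex with `f = c` to one with `f = d`. -/
theorem subwalk {f : ℤ × ℤ → ℤ} {c d : ℤ} (hcd : c ≤ d) {m : ℕ} {w : ℕ → ℤ × ℤ}
    (hf : ∀ k < m, f (w (k + 1)) ≤ f (w k) + 1) (h0 : f (w 0) ≤ c)
    (hm : d ≤ f (w m)) : ∃ s t, s ≤ t ∧ t ≤ m ∧ f (w s) = c ∧ f (w t) = d ∧
      ∀ k, s ≤ k → k ≤ t → c ≤ f (w k) ∧ f (w k) ≤ d := by
  classical
  have hex : ∃ k, k ≤ m ∧ d ≤ f (w k) := ⟨m, le_rfl, hm⟩
  set t := Nat.find hex with ht
  have ht1 : t ≤ m ∧ d ≤ f (w t) := Nat.find_spec hex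
  have ht2 : ∀ k < t, f (w k) < d := by
    intro k hk
    have := Nat.find_min hex hk
    by_contra hcon
    exact this ⟨by omega, by omega⟩
  have htd : f (w t) = d := by
    rcases Nat.eq_zero_or_pos t with h | h
    · rw [h] at ht1 ⊢; omega
    · have e1 := ht2 (t - 1) (by omega)
      have e2 := hf (t - 1) (by omega)
      rw [Nat.sub_add_cancel h] at e2
      omega
  set s := Nat.findGreatest (fun k => f (w k) ≤ c) t with hs
  have hs1 : f (w s) ≤ c := Nat.findGreatest_spec (P := fun k => f (w k) ≤ c) (Nat.zero_le t) h0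
  have hst : s ≤ t := Nat.findGreatest_le t
  have hs2 : ∀ k, s < k → k ≤ t → c < f (w k) := by
    intro k h1 h2
    have := Nat.findGreatest_is_greatest (P := fun k => f (w k) ≤ c) h1 h2
    omega
  have hsc : f (w s) = c := by
    rcases Nat.eq_or_lt_of_le hst with h | h
    · rw [h] at hs1 ⊢; omega
    · have e1 := hs2 (s + 1) (by omega) h
      have e2 := hf s (by omega)
      omega
  refine ⟨s, t, hst, ht1.1, hsc, htd, ?_⟩
  intro k h1 h2
  constructor
  · rcases Nat.eq_or_lt_of_le h1 with h | h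
    · rw [← h]; omega
    · exact (hs2 k h h2).le
  · rcases Nat.eq_or_lt_of_le h2 with h | h
    · rw [h]; omega
    · exact (ht2 k h).le

/-- Primitive of a function on the integers. -/
theorem exists_prim (f : ℤ → ZMod 2) : ∃ F : ℤ → ZMod 2, F 0 = 0 ∧ ∀ i, F (i + 1) = F i + f i := by
  refine ⟨fun i => ∑ k ∈ Finset.Ico 0 i, f k + ∑ k ∈ Finset.Ico i 0, f k, by simp, ?_⟩
  intro i
  have h0 : (2 : ZMod 2) = 0 := rfl
  rcases le_or_gt 0 i with h | h
  · have e1 : Finset.Ico 0 (i + 1) = insert i (Finset.Ico 0 i) := by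
      ext k; simp only [Finset.mem_Ico, Finset.mem_insert]; omega
    have e2 : Finset.Ico (i + 1) 0 = ∅ := Finset.Ico_eq_empty (by omega)
    have e3 : Finset.Ico i 0 = ∅ := Finset.Ico_eq_empty (by omega)
    simp only [e1, e2, e3, Finset.sum_empty]
    rw [Finset.sum_insert (by simp)]
    ring
  · have e1 : Finset.Ico i 0 = insert i (Finset.Ico (i + 1) 0) := by
      ext k; simp only [Finset.mem_Ico, Finset.mem_insert]; omega
    have e2 : Finset.Ico 0 (i + 1) = ∅ := Finset.Ico_eq_empty (by omega)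
    have e3 : Finset.Ico 0 i = ∅ := Finset.Ico_eq_empty (by omega)
    simp only [e1, e2, e3, Finset.sum_empty]
    rw [Finset.sum_insert (by simp)]
    linear_combination - f i * h0

theorem const_of_succ {g : ℤ → ZMod 2} (h0 : g 0 = 0) (h : ∀ j, g (j + 1) = g j) (j : ℤ) :
    g j = 0 := by
  induction j using Int.induction_on with
  | zero => exact h0
  | succ n ih => rw [h, ih]
  | pred n ih =>
    have := h (-(n : ℤ) - 1)
    rw [sub_add_cancel] at this
    rw [← this, ih]

/-- A cochain on the edges of the triangular lattice whose sum around every triangle is zero is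
the coboundary of a function on the vertices. -/
theorem exists_cob (c : ℤ × ℤ → ℤ × ℤ → ZMod 2) (hs : ∀ x y, c x y = c y x)
    (h1 : ∀ i j, c (i, j) (i + 1, j) + c (i, j) (i, j + 1) + c (i + 1, j) (i, j + 1) = 0)
    (h2 : ∀ i j, c (i + 1, j) (i, j + 1) + c (i + 1, j) (i + 1, j + 1) +
      c (i, j + 1) (i + 1, j + 1) = 0) :
    ∃ U : ℤ × ℤ → ZMod 2, ∀ x y, Step x y → c x y = U x + U y := by
  have h0 : (2 : ZMod 2) = 0 := rfl
  obtain ⟨A, hA0, hA⟩ := exists_prim (fun i => c (i, 0) (i + 1, 0))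
  choose B hB0 hB using fun i => exists_prim (fun j => c (i, j) (i, j + 1))
  have hor : ∀ i j, c (i, j) (i + 1, j) = (A i + B i j) + (A (i + 1) + B (i + 1) j) := by
    intro i
    have key : ∀ j, (A i + B i j) + (A (i + 1) + B (i + 1) j) + c (i, j) (i + 1, j) = 0 := by
      apply const_of_succ
      · rw [hB0, hB0, hA]
        linear_combination (A i + c (i, 0) (i + 1, 0)) * h0
      · intro j
        rw [hB, hB]
        linear_combination h1 i j + h2 i j - (c (i + 1, j) (i, j + 1) +
          c (i, j) (i + 1, j)) * h0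
    intro j
    linear_combination key j - ((A i + B i j) + (A (i + 1) + B (i + 1) j)) * h0
  have ver : ∀ i j, c (i, j) (i, j + 1) = (A i + B i j) + (A i + B i (j + 1)) := by
    intro i j
    rw [hB]
    linear_combination - (A i + B i j) * h0
  have dia : ∀ i j, c (i + 1, j) (i, j + 1) =
      (A (i + 1) + B (i + 1) j) + (A i + B i (j + 1)) := by
    intro i j
    have e1 := h1 i j
    have e2 := hor i j
    have e3 := ver i j
    linear_combination e1 - e2 - e3 - (A i + B i j + (A (i + 1) + B (i + 1) j) +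
      (A i + B i (j + 1))) * h0
  refine ⟨fun x => A x.1 + B x.1 x.2, ?_⟩
  rintro ⟨i, j⟩ ⟨k, l⟩ h
  unfold Step at h
  dsimp only at h ⊢
  rcases h with ⟨rfl, rfl⟩ | ⟨rfl, rfl⟩ | ⟨rfl, rfl⟩ | ⟨rfl, rfl⟩ | ⟨rfl, rfl⟩ | ⟨rfl, rfl⟩
  · exact hor i l
  · have := hor (i - 1) l
    rw [sub_add_cancel] at this
    rw [hs, this]; ring
  · exact ver k j
  · have := ver k (j - 1)
    rw [sub_add_cancel] at this
    rw [hs, this]; ring
  · have := dia i (j - 1)
    rw [sub_add_cancel] at this
    rw [hs, this]; ring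
  · have := dia (i - 1) j
    rw [sub_add_cancel] at this
    rw [this]

end Vale.Agent.P153.Topo
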