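import Vale.Agent.P153.Topo.Basic
import Vale.Agent.P153.Lattice

/-!
The boundary between a connected set `K` of the triangular lattice and a connected component `W`
of its complement is connected.
-/

namespace Vale.Agent.P153.Topo

open Relation

theorem adj_iff_step {x y : ℤ × ℤ} : Adj x y ↔ Step x y := by
  obtain ⟨a, b⟩ := x
  obtain ⟨c, d⟩ := y
  simp only [Adj, Step, Set.mem_insert_iff, Set.mem_singleton_iff, Prod.mk.injEq]
  omega

/-- Two consecutive edges (oriented from `K` to `W`) of the interface: they have one end in common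
and the other two ends are neighbours, so they are two edges of a lattice triangle. -/
def Turn (K W : Set (ℤ × ℤ)) (e f : (ℤ × ℤ) × (ℤ × ℤ)) : Prop :=
  (f.1 ∈ K ∧ f.2 ∈ W ∧ Step f.1 f.2) ∧
    ((e.1 = f.1 ∧ Step e.2 f.2) ∨ (e.2 = f.2 ∧ Step e.1 f.1))

/-- `K` connected, `W` connected and closed under passing to neighbours off `K`: any two edges
between `K` and `W` are joined by a chain of such edges in which consecutive ones are edges of a
common triangle. -/
theorem interface_connected {K W : Set (ℤ × ℤ)} (hKW : Disjoint K W)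
    (hK : ∀ x ∈ K, ∀ y ∈ K, Joined K x y) (hW : ∀ x ∈ W, ∀ y ∈ W, Joined W x y)
    (hcl : ∀ x ∈ W, ∀ y, Step x y → y ∉ K → y ∈ W) {k₀ w₀ k₁ w₁ : ℤ × ℤ} (hk₀ : k₀ ∈ K)
    (hw₀ : w₀ ∈ W) (h₀ : Step k₀ w₀) (hk₁ : k₁ ∈ K) (hw₁ : w₁ ∈ W) (h₁ : Step k₁ w₁) :
    ReflTransGen (Turn K W) (k₀, w₀) (k₁, w₁) := by
  classical
  have hdis : ∀ z, z ∈ K → z ∈ W → False := fun z h1 h2 => (Set.disjoint_left.mp hKW) h1 h2
  have hz2 : (1 : ZMod 2) + 1 = 0 := rfl
  set C : Set ((ℤ × ℤ) × (ℤ × ℤ)) := {e | ReflTransGen (Turn K W) (k₀, w₀) e} with hC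
  have hCm : ∀ e ∈ C, e.1 ∈ K ∧ e.2 ∈ W ∧ Step e.1 e.2 := by
    intro e he
    rcases ReflTransGen.cases_tail he with rfl | ⟨f, -, hf⟩
    · exact ⟨hk₀, hw₀, h₀⟩
    · exact hf.1
  have hCt : ∀ e ∈ C, ∀ f, Turn K W e f → f ∈ C := fun e he f hf => he.tail hf
  set c : ℤ × ℤ → ℤ × ℤ → ZMod 2 := fun x y => if (x, y) ∈ C ∨ (y, x) ∈ C then 1 else 0 with hc
  have hcs : ∀ x y, c x y = c y x := by
    intro x y
    simp only [hc]
    congr 1
    exact propext or_comm
  have hc0 : ∀ x y, (x, y) ∉ C → (y, x) ∉ C → c x y = 0 := by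
    intro x y h1 h2; simp only [hc]; rw [if_neg (by tauto)]
  have hc1 : ∀ x y, (x, y) ∈ C → c x y = 1 := by
    intro x y h1; simp only [hc]; rw [if_pos (Or.inl h1)]
  have hc2 : ∀ x y, (y, x) ∈ C → c x y = 1 := by
    intro x y h1; simp only [hc]; rw [if_pos (Or.inr h1)]
  -- a triangle with an edge in `C`
  have tri : ∀ x y z, Step x y → Step y z → Step x z → (x, y) ∈ C →
      c x y + c x z + c y z = 0 := by
    intro x y z hxy hyz hxz hm
    obtain ⟨m1, m2, -⟩ := hCm _ hm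
    dsimp only at m1 m2
    by_cases hz : z ∈ K
    · have e1 : (z, y) ∈ C := hCt _ hm _ ⟨⟨hz, m2, step_symm hyz⟩, Or.inr ⟨rfl, hxz⟩⟩
      rw [hc1 _ _ hm, hc2 _ _ e1, hc0 x z]
      · rw [add_zero]; exact hz2
      · intro h; exact hdis _ hz (hCm _ h).2.1
      · intro h; exact hdis _ m1 (hCm _ h).2.1
    · have hzW : z ∈ W := hcl y m2 z hyz hz
      have e1 : (x, z) ∈ C := hCt _ hm _ ⟨⟨m1, hzW, hxz⟩, Or.inl ⟨rfl, hyz⟩⟩
      rw [hc1 _ _ hm, hc1 _ _ e1, hc0 y z]
      · rw [add_zero]; exact hz2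
      · intro h; exact hdis _ (hCm _ h).1 m2
      · intro h; exact hdis _ (hCm _ h).1 hzW
  have tri' : ∀ x y z, Step x y → Step y z → Step x z → c x y + c x z + c y z = 0 := by
    intro x y z hxy hyz hxz
    have t1 := tri x y z hxy hyz hxz
    have t2 := tri y x z (step_symm hxy) hxz hyz
    have t3 := tri x z y hxz (step_symm hyz) hxy
    have t4 := tri z x y (step_symm hxz) hxy (step_symm hyz)
    have t5 := tri y z x hyz (step_symm hxz) (step_symm hxy)
    have t6 := tri z y x (step_symm hyz) (step_symm hxy) (step_symm hxz)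
    by_cases a1 : (x, y) ∈ C
    · exact t1 a1
    by_cases a2 : (y, x) ∈ C
    · have := t2 a2
      rw [hcs y x] at this
      rw [← this]; ring
    by_cases a3 : (x, z) ∈ C
    · have := t3 a3
      rw [hcs z y] at this
      rw [← this]; ring
    by_cases a4 : (z, x) ∈ C
    · have := t4 a4
      rw [hcs z x, hcs z y] at this
      rw [← this]; ring
    by_cases a5 : (y, z) ∈ C
    · have := t5 a5
      rw [hcs y x, hcs z x] at this
      rw [← this]; ring
    by_cases a6 : (z, y) ∈ C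
    · have := t6 a6
      rw [hcs z y, hcs z x, hcs y x] at this
      rw [← this]; ring
    rw [hc0 _ _ a1 a2, hc0 _ _ a3 a4, hc0 _ _ a5 a6]; ring
  obtain ⟨U, hU⟩ := exists_cob c hcs
    (by
      intro i j
      apply tri' <;> (unfold Step; dsimp only; omega))
    (by
      intro i j
      have := tri' (i + 1, j) (i, j + 1) (i + 1, j + 1) (by unfold Step; dsimp only; omega)
        (by unfold Step; dsimp only; omega) (by unfold Step; dsimp only; omega)
      rw [← this])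
  have constK : ∀ x y, Joined K x y → U x = U y := by
    rintro x y ⟨hx, h⟩
    induction h with
    | refl => rfl
    | tail hab hbc ih =>
      rename_i b' c'
      rw [ih]
      have hb : b' ∈ K := Joined.right ⟨hx, hab⟩
      have h0 : c b' c' = 0 := hc0 _ _ (fun h => hdis _ hbc.2 (hCm _ h).2.1)
        (fun h => hdis _ hb (hCm _ h).2.1)
      have := hU b' c' hbc.1
      rw [h0] at this
      have h2 : (2 : ZMod 2) = 0 := rfl
      linear_combination - this - U c' * h2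
  have constW : ∀ x y, Joined W x y → U x = U y := by
    rintro x y ⟨hx, h⟩
    induction h with
    | refl => rfl
    | tail hab hbc ih =>
      rename_i b' c'
      rw [ih]
      have hb : b' ∈ W := Joined.right ⟨hx, hab⟩
      have h0 : c b' c' = 0 := hc0 _ _ (fun h => hdis _ (hCm _ h).1 hb)
        (fun h => hdis _ (hCm _ h).1 hbc.2)
      have := hU b' c' hbc.1
      rw [h0] at this
      have h2 : (2 : ZMod 2) = 0 := rfl
      linear_combination - this - U c' * h2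
  have e0 : c k₀ w₀ = 1 := hc1 _ _ ReflTransGen.refl
  have e1 : c k₁ w₁ = 1 := by
    rw [hU _ _ h₁, ← constK _ _ (hK k₀ hk₀ k₁ hk₁), ← constW _ _ (hW w₀ hw₀ w₁ hw₁),
      ← hU _ _ h₀, e0]
  by_contra hcon
  have : c k₁ w₁ = 0 := hc0 _ _ hcon (fun h => hdis _ hk₁ (hCm _ h).2.1)
  rw [this] at e1
  exact absurd e1 (by decide)

/-- The vertices of `W` adjacent to `K` (outer boundary of `K` towards `W`). -/
def outer (K W : Set (ℤ × ℤ)) : Set (ℤ × ℤ) := {w | w ∈ W ∧ ∃ k ∈ K, Step k w}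

/-- The vertices of `K` adjacent to `W` (inner boundary of `K` towards `W`). -/
def inner (K W : Set (ℤ × ℤ)) : Set (ℤ × ℤ) := {k | k ∈ K ∧ ∃ w ∈ W, Step k w}

theorem turn_joined {K W : Set (ℤ × ℤ)} {e f : (ℤ × ℤ) × (ℤ × ℤ)}
    (h : ReflTransGen (Turn K W) e f) (he : e.1 ∈ K ∧ e.2 ∈ W ∧ Step e.1 e.2) :
    Joined (outer K W) e.2 f.2 ∧ Joined (inner K W) e.1 f.1 := by
  induction h with
  | refl => exact ⟨Joined.refl ⟨he.2.1, e.1, he.1, he.2.2⟩, Joined.refl ⟨he.1, e.2, he.2.1, he.2.2⟩⟩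
  | tail hab hbc ih =>
    obtain ⟨⟨h1, h2, h3⟩, h4⟩ := hbc
    rename_i b c
    have m2 : c.2 ∈ outer K W := ⟨h2, c.1, h1, h3⟩
    have m1 : c.1 ∈ inner K W := ⟨h1, c.2, h2, h3⟩
    rcases h4 with ⟨h5, h6⟩ | ⟨h5, h6⟩
    · refine ⟨ih.1.trans (Joined.single h6 ih.1.right m2), ?_⟩
      rw [← h5]; exact ih.2
    · refine ⟨?_, ih.2.trans (Joined.single h6 ih.2.right m1)⟩
      rw [← h5]; exact ih.1

theorem outer_connected {K W : Set (ℤ × ℤ)} (hKW : Disjoint K W)
    (hK : ∀ x ∈ K, ∀ y ∈ K, Joined K x y) (hW : ∀ x ∈ W, ∀ y ∈ W, Joined W x y)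
    (hcl : ∀ x ∈ W, ∀ y, Step x y → y ∉ K → y ∈ W) {v w : ℤ × ℤ} (hv : v ∈ outer K W)
    (hw : w ∈ outer K W) : Joined (outer K W) v w := by
  obtain ⟨h1, k, h2, h3⟩ := hv
  obtain ⟨h4, l, h5, h6⟩ := hw
  exact (turn_joined (interface_connected hKW hK hW hcl h2 h1 h3 h5 h4 h6) ⟨h2, h1, h3⟩).1

theorem inner_connected {K W : Set (ℤ × ℤ)} (hKW : Disjoint K W)
    (hK : ∀ x ∈ K, ∀ y ∈ K, Joined K x y) (hW : ∀ x ∈ W, ∀ y ∈ W, Joined W x y)
    (hcl : ∀ x ∈ W, ∀ y, Step x y → y ∉ K → y ∈ W) {v w : ℤ × ℤ} (hv : v ∈ inner K W)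
    (hw : w ∈ inner K W) : Joined (inner K W) v w := by
  obtain ⟨h1, k, h2, h3⟩ := hv
  obtain ⟨h4, l, h5, h6⟩ := hw
  exact (turn_joined (interface_connected hKW hK hW hcl h1 h2 h3 h4 h5 h6) ⟨h1, h2, h3⟩).2

end Vale.Agent.P153.Topo
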