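import Vale.Agent.P153.Topo.Conn

/-!
Interfaces on the triangular lattice: following the boundary between a set `S` and its complement.
A position on the interface is a pair `(r, b)` of adjacent vertices, `r ∈ S`, `b ∉ S`.
-/

namespace Vale.Agent.P153.Topo

open Vale.Agent.P153 Classical

/-- The common neighbour of `e.1` and `e.2` on the left of the edge from `e.1` to `e.2`. -/
def lv (e : (ℤ × ℤ) × (ℤ × ℤ)) : ℤ × ℤ :=
  (e.1.1 - (e.2.2 - e.1.2), e.1.2 + (e.2.1 - e.1.1) + (e.2.2 - e.1.2))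

/-- The common neighbour of `e.1` and `e.2` on the right of the edge from `e.1` to `e.2`. -/
def rv (e : (ℤ × ℤ) × (ℤ × ℤ)) : ℤ × ℤ :=
  (e.1.1 + (e.2.1 - e.1.1) + (e.2.2 - e.1.2), e.1.2 - (e.2.1 - e.1.1))

/-- The positions on the interface of `S`. -/
def Pos (S : Set (ℤ × ℤ)) : Set ((ℤ × ℤ) × (ℤ × ℤ)) := {e | Adj e.1 e.2 ∧ e.1 ∈ S ∧ e.2 ∉ S}

/-- The next position on the interface. -/
noncomputable def nxt (S : Set (ℤ × ℤ)) (e : (ℤ × ℤ) × (ℤ × ℤ)) : (ℤ × ℤ) × (ℤ × ℤ) :=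
  if lv e ∈ S then (lv e, e.2) else (e.1, lv e)

/-- The previous position on the interface. -/
noncomputable def prv (S : Set (ℤ × ℤ)) (e : (ℤ × ℤ) × (ℤ × ℤ)) : (ℤ × ℤ) × (ℤ × ℤ) :=
  if rv e ∈ S then (rv e, e.2) else (e.1, rv e)

theorem adj_lv_left {e : (ℤ × ℤ) × (ℤ × ℤ)} (h : Adj e.1 e.2) : Adj e.1 (lv e) := by
  rw [adj_iff] at h ⊢
  simp only [lv]
  omega

theorem adj_lv_right {e : (ℤ × ℤ) × (ℤ × ℤ)} (h : Adj e.1 e.2) : Adj (lv e) e.2 := by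
  rw [adj_iff] at h ⊢
  simp only [lv]
  omega

theorem adj_rv_left {e : (ℤ × ℤ) × (ℤ × ℤ)} (h : Adj e.1 e.2) : Adj e.1 (rv e) := by
  rw [adj_iff] at h ⊢
  simp only [rv]
  omega

theorem adj_rv_right {e : (ℤ × ℤ) × (ℤ × ℤ)} (h : Adj e.1 e.2) : Adj (rv e) e.2 := by
  rw [adj_iff] at h ⊢
  simp only [rv]
  omega

theorem rv_lv_left {e : (ℤ × ℤ) × (ℤ × ℤ)} : rv (lv e, e.2) = e.1 := by
  obtain ⟨⟨a, b⟩, ⟨c, d⟩⟩ := e
  simp only [rv, lv, Prod.mk.injEq]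
  constructor <;> ring

theorem rv_lv_right {e : (ℤ × ℤ) × (ℤ × ℤ)} : rv (e.1, lv e) = e.2 := by
  obtain ⟨⟨a, b⟩, ⟨c, d⟩⟩ := e
  simp only [rv, lv, Prod.mk.injEq]
  constructor <;> ring

theorem lv_rv_left {e : (ℤ × ℤ) × (ℤ × ℤ)} : lv (rv e, e.2) = e.1 := by
  obtain ⟨⟨a, b⟩, ⟨c, d⟩⟩ := e
  simp only [rv, lv, Prod.mk.injEq]
  constructor <;> ring

theorem lv_rv_right {e : (ℤ × ℤ) × (ℤ × ℤ)} : lv (e.1, rv e) = e.2 := by
  obtain ⟨⟨a, b⟩, ⟨c, d⟩⟩ := e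
  simp only [rv, lv, Prod.mk.injEq]
  constructor <;> ring

theorem nxt_mem {S : Set (ℤ × ℤ)} {e : (ℤ × ℤ) × (ℤ × ℤ)} (h : e ∈ Pos S) : nxt S e ∈ Pos S := by
  obtain ⟨h1, h2, h3⟩ := h
  unfold nxt
  split_ifs with hl
  · exact ⟨adj_lv_right h1, hl, h3⟩
  · exact ⟨adj_lv_left h1, h2, hl⟩

theorem prv_mem {S : Set (ℤ × ℤ)} {e : (ℤ × ℤ) × (ℤ × ℤ)} (h : e ∈ Pos S) : prv S e ∈ Pos S := by
  obtain ⟨h1, h2, h3⟩ := h
  unfold prv
  split_ifs with hl
  · exact ⟨adj_rv_right h1, hl, h3⟩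
  · exact ⟨adj_rv_left h1, h2, hl⟩

theorem prv_nxt {S : Set (ℤ × ℤ)} {e : (ℤ × ℤ) × (ℤ × ℤ)} (h : e ∈ Pos S) :
    prv S (nxt S e) = e := by
  obtain ⟨h1, h2, h3⟩ := h
  unfold nxt
  split_ifs with hl
  · unfold prv
    rw [rv_lv_left, if_pos h2]
  · unfold prv
    rw [rv_lv_right, if_neg h3]

theorem nxt_prv {S : Set (ℤ × ℤ)} {e : (ℤ × ℤ) × (ℤ × ℤ)} (h : e ∈ Pos S) :
    nxt S (prv S e) = e := by
  obtain ⟨h1, h2, h3⟩ := h
  unfold prv
  split_ifs with hl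
  · unfold nxt
    rw [lv_rv_left, if_pos h2]
  · unfold nxt
    rw [lv_rv_right, if_neg h3]

/-- The position after `k` steps along the interface from `e`. -/
noncomputable def pos (S : Set (ℤ × ℤ)) (e : (ℤ × ℤ) × (ℤ × ℤ)) (k : ℕ) : (ℤ × ℤ) × (ℤ × ℤ) :=
  (nxt S)^[k] e

theorem pos_zero (S : Set (ℤ × ℤ)) (e : (ℤ × ℤ) × (ℤ × ℤ)) : pos S e 0 = e := rfl

theorem pos_succ (S : Set (ℤ × ℤ)) (e : (ℤ × ℤ) × (ℤ × ℤ)) (k : ℕ) :
    pos S e (k + 1) = nxt S (pos S e k) := Function.iterate_succ_apply' _ _ _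

theorem pos_mem {S : Set (ℤ × ℤ)} {e : (ℤ × ℤ) × (ℤ × ℤ)} (h : e ∈ Pos S) (k : ℕ) :
    pos S e k ∈ Pos S := by
  induction k with
  | zero => exact h
  | succ k ih => rw [pos_succ]; exact nxt_mem ih

theorem pos_inj_step {S : Set (ℤ × ℤ)} {e : (ℤ × ℤ) × (ℤ × ℤ)} (h : e ∈ Pos S) (i j : ℕ)
    (hij : pos S e (i + 1) = pos S e (j + 1)) : pos S e i = pos S e j := by
  rw [pos_succ, pos_succ] at hij
  rw [← prv_nxt (pos_mem h i), hij, prv_nxt (pos_mem h j)]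

theorem pos_return {S : Set (ℤ × ℤ)} {e : (ℤ × ℤ) × (ℤ × ℤ)} (h : e ∈ Pos S) (i j : ℕ)
    (hij : pos S e i = pos S e (i + j)) : pos S e 0 = pos S e j := by
  induction i with
  | zero => simpa using hij
  | succ i ih =>
    apply ih
    apply pos_inj_step h
    rw [hij]
    congr 1
    omega

/-- **Exit lemma.** The interface which enters a finite set of positions has to leave it. -/
theorem exists_exit {S : Set (ℤ × ℤ)} {W : Set ((ℤ × ℤ) × (ℤ × ℤ))} (hW : W.Finite)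
    {e : (ℤ × ℤ) × (ℤ × ℤ)} (h : e ∈ Pos S) (h0 : e ∈ W) (hp : prv S e ∉ W) :
    ∃ k, (∀ i ≤ k, pos S e i ∈ W) ∧ pos S e (k + 1) ∉ W := by
  have hex : ∃ n, pos S e n ∉ W := by
    by_contra hall
    push Not at hall
    have hfin : Finite W := hW
    obtain ⟨i, j, hij, hE⟩ := Finite.exists_ne_map_eq_of_infinite
      (fun n : ℕ => (⟨pos S e n, hall n⟩ : W))
    simp only [Subtype.mk.injEq] at hE
    have main : ∀ i j : ℕ, i < j → pos S e i = pos S e j → False := by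
      intro i j hij hE
      obtain ⟨m, rfl⟩ := Nat.exists_eq_add_of_lt hij
      have h1 := pos_return h i (m + 1) (by rw [hE]; rfl)
      rw [pos_zero, pos_succ] at h1
      apply hp
      have h2 : prv S e = pos S e m := by
        have := prv_nxt (pos_mem h m)
        rw [← h1] at this
        exact this
      rw [h2]
      exact hall m
    rcases lt_or_gt_of_ne hij with h' | h'
    · exact main i j h' hE
    · exact main j i h' hE.symm
  have hn := Nat.find_spec hex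
  have hpos : Nat.find hex ≠ 0 := by
    intro h1
    rw [h1] at hn
    exact hn h0
  obtain ⟨k, hk⟩ := Nat.exists_eq_succ_of_ne_zero hpos
  refine ⟨k, ?_, ?_⟩
  · intro i hi
    by_contra hcon
    have := Nat.find_min' hex hcon
    omega
  · have := hn
    rw [hk] at this
    exact this

/-- The vertices of `S` met by the interface are connected. -/
theorem conn_fst {S T : Set (ℤ × ℤ)} {e : (ℤ × ℤ) × (ℤ × ℤ)} (h : e ∈ Pos S) (k : ℕ)
    (hT : ∀ i ≤ k, (pos S e i).1 ∈ T) : Conn (S ∩ T) e.1 (pos S e k).1 := by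
  induction k with
  | zero => exact Conn.refl ⟨h.2.1, hT 0 le_rfl⟩
  | succ k ih =>
    have h1 := ih fun i hi => hT i (by omega)
    have h2 := hT (k + 1) le_rfl
    have h3 := pos_mem h k
    rw [pos_succ] at h2 ⊢
    unfold nxt at h2 ⊢
    split_ifs at h2 ⊢ with hl
    · exact h1.tail (adj_lv_left h3.1) ⟨hl, h2⟩
    · exact h1

/-- The vertices off `S` met by the interface are connected. -/
theorem conn_snd {S T : Set (ℤ × ℤ)} {e : (ℤ × ℤ) × (ℤ × ℤ)} (h : e ∈ Pos S) (k : ℕ)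
    (hT : ∀ i ≤ k, (pos S e i).2 ∈ T) : Conn (Sᶜ ∩ T) e.2 (pos S e k).2 := by
  induction k with
  | zero => exact Conn.refl ⟨h.2.2, hT 0 le_rfl⟩
  | succ k ih =>
    have h1 := ih fun i hi => hT i (by omega)
    have h2 := hT (k + 1) le_rfl
    have h3 := pos_mem h k
    rw [pos_succ] at h2 ⊢
    unfold nxt at h2 ⊢
    split_ifs at h2 ⊢ with hl
    · exact h1
    · exact h1.tail (adj_symm (adj_lv_right h3.1)) ⟨hl, h2⟩

end Vale.Agent.P153.Topo
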